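import Crest.Agent.N233.Defs

/-!
# Row 233 (helper80): chambers are canonical — interface

`Coc` cocycles on the edges of a flag complex, `Flat`/`Par` flat connections in Alexander–Spanier form,
`Lk` link conditions, `Ind` algebraic marking of the chamber, `Ds` what is used of the Davis manifold.
-/

set_option autoImplicit false
open Set Topology Filter
open scoped Pointwise

noncomputable section

namespace Crest.Agent.N233.Cc

open Crest.Agent.N255.Ra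

section coc

variable {S : Type} (Γ : SimpleGraph S) {Λ : Type} [Group Λ]

/-- equal or adjacent -/
def Ae (a b : S) : Prop := a = b ∨ Γ.Adj a b

/-- `c` is a cocycle on the full subcomplex spanned by `A` -/
def Coc (A : Set S) (c : S → S → Λ) : Prop :=
  ∀ a ∈ A, ∀ b ∈ A, ∀ d ∈ A, Ae Γ a b → Ae Γ b d → Ae Γ a d → c a b * c b d = c a d

/-- `c` and `c'` are gauge equivalent on `A` by `k` -/
def GaK (A : Set S) (c c' : S → S → Λ) (k : S → Λ) : Prop :=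
  ∀ a ∈ A, ∀ b ∈ A, Ae Γ a b → c' a b = k a * c a b * (k b)⁻¹

/-- gauge equivalent on `A` -/
def Ga (A : Set S) (c c' : S → S → Λ) : Prop := ∃ k, GaK Γ A c c' k

/-- `c` is a coboundary on `A` -/
def Tr (A : Set S) (c : S → S → Λ) : Prop := Ga Γ A (fun _ _ => 1) c

/-- the full subcomplex on `A` is nonempty and connected -/
def Cn (A : Set S) : Prop :=
  A.Nonempty ∧ ∀ P : S → Prop, (∀ a ∈ A, ∀ b ∈ A, Γ.Adj a b → P a → P b) → ∀ a ∈ A, ∀ b ∈ A, P a → P b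

/-- the full subcomplex on `A` is simply connected -/
def Sc (A : Set S) : Prop :=
  Cn Γ A ∧ ∀ (H : Type) [Group H] (c : S → S → H), Coc Γ A c → Tr Γ A c

/-- punctured links: of a vertex simply connected, of an edge connected, of a triangle nonempty -/
structure Lk : Prop where
  fin : ∀ a, {s | Γ.Adj a s}.Finite
  one : ∀ a (σ : Set S), Γ.IsClique σ → Sc Γ {s | Γ.Adj a s ∧ s ∉ σ}
  two : ∀ a b (σ : Set S), Γ.Adj a b → Γ.IsClique σ → Cn Γ {s | Γ.Adj a s ∧ Γ.Adj b s ∧ s ∉ σ}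
  three : ∀ a b d (σ : Set S), Γ.Adj a b → Γ.Adj b d → Γ.Adj a d → Γ.IsClique σ →
    {s | Γ.Adj a s ∧ Γ.Adj b s ∧ Γ.Adj d s ∧ s ∉ σ}.Nonempty

/-- the two inclusions of `H` in `H ∗ H` -/
def ι (H : Type) [Group H] : Bool → (H →* Monoid.Coprod H H)
  | false => Monoid.Coprod.inl
  | true => Monoid.Coprod.inr

/-- the fold map -/
def fold (H : Type) [Group H] : Monoid.Coprod H H →* H :=
  Monoid.Coprod.lift (MonoidHom.id H) (MonoidHom.id H)

/-- the algebraic marking: finite pieces `A v` and finitely supported cocycles `φ v` -/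
structure Ind {F : Type} [Group F] (ρ : F →* (Γ ≃g Γ)) (V : Type) [MulAction F V] (Λ : Type) [Group Λ] where
  ne : Nonempty V
  R : V → V → Prop
  conn : ∀ P : V → Prop, (∀ v v', R v v' → (P v ↔ P v')) → ∀ v v', P v → P v'
  A : V → Set S
  A_fin : ∀ v, (A v).Finite
  A_cn : ∀ v, Cn Γ (A v)
  A_smul : ∀ (f : F) v, A (f • v) = ρ f '' A v
  φ : V → S → S → Λ
  φ_coc : ∀ v, Coc Γ univ (φ v)
  φ_fin : ∀ v, ∃ B : Set S, B.Finite ∧ ∀ a b, Ae Γ a b → a ∉ B → b ∉ B → φ v a b = 1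
  φ_smul : ∀ (f : F) v a b, φ (f • v) (ρ f a) (ρ f b) = φ v a b
  ell : ∀ v (H : Type) [Group H] (q : H →* Λ) (Φ : S → S → Monoid.Coprod H H), Coc Γ (A v) Φ →
    Ga Γ (A v) (fun a b => q (fold H (Φ a b))) (φ v) →
    ∃ (ε : Bool) (c : S → S → H), Ga Γ (A v) Φ fun a b => ι H ε (c a b)
  nt : ∀ v, ¬ Tr Γ (A v) (φ v)
  nt2 : ∀ v v', R v v' → ¬ Tr Γ (A v ∩ A v') (φ v)
  glue : ∀ (H : Type) [Group H] (c : S → S → H), Coc Γ univ c → (∀ v, Tr Γ (A v) c) → Tr Γ univ c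

end coc

section flat

variable {Y : Type} [TopologicalSpace Y] {Λ : Type} [Group Λ]

/-- `g` is a cocycle near the diagonal of `U` -/
def Flat (g : Y → Y → Λ) (U : Set Y) : Prop :=
  ∀ x ∈ U, ∃ N ∈ 𝓝 x, ∀ y ∈ N, ∀ z ∈ N, g x y * g y z = g x z

/-- `b` is a parallel section of `g` on `U` -/
def Par (g : Y → Y → Λ) (U : Set Y) (b : Y → Λ) : Prop :=
  ∀ x ∈ U, ∀ᶠ y in 𝓝[U] x, b y = b x * g x y

/-- `b` is a gauge transformation from `g` to `g'` on `U` -/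
def Gt (g g' : Y → Y → Λ) (U : Set Y) (b : Y → Λ) : Prop :=
  ∀ x ∈ U, ∀ᶠ y in 𝓝[U] x, g' x y = b x * g x y * (b y)⁻¹

/-- the inclusion of `A` is null-homotopic inside `B` -/
def NulIn (A B : Set Y) : Prop :=
  ∃ (H : C(unitInterval × A, Y)) (y₀ : Y), (∀ q, H q ∈ B) ∧ (∀ a, H (0, a) = y₀) ∧ ∀ a, H (1, a) = a

end flat

/-- the group `W ⋊ F` -/
abbrev G0 {S F : Type} {Γ : SimpleGraph S} [Group F] (ρ : F →* (Γ ≃g Γ)) : Type := W Γ ⋊[autHom ρ] F

/-- the chamber `u` as an element of `W ⋊ F` -/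
abbrev iw {S F : Type} {Γ : SimpleGraph S} [Group F] (ρ : F →* (Γ ≃g Γ)) (u : W Γ) : G0 ρ :=
  SemidirectProduct.inl u

/-- the element `f` of `F` in `W ⋊ F` -/
abbrev jf {S F : Type} {Γ : SimpleGraph S} [Group F] (ρ : F →* (Γ ≃g Γ)) (f : F) : G0 ρ :=
  SemidirectProduct.inr f

/-- what is used of the Davis manifold: `Ch` the closed base chamber, `St a` the open star of the edge
`(1, a)`, `Mx x` the largest coordinates of a point of the base chamber -/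
structure Ds {S F : Type} {Γ : SimpleGraph S} [Group F] (ρ : F →* (Γ ≃g Γ)) (M : Type)
    [TopologicalSpace M] [MulAction (G0 ρ) M] where
  Ch : Set M
  St : S → Set M
  Mx : M → Set S
  E : Set M
  Ch_smul : ∀ f : F, jf ρ f • Ch = Ch
  St_smul : ∀ (f : F) a, jf ρ f • St a = St (ρ f a)
  Mx_smul : ∀ (f : F) x, Mx (jf ρ f • x) = ρ f '' Mx x
  St_open : ∀ a, IsOpen (St a)
  St_cpt : ∀ a, ∃ K, IsCompact K ∧ St a ⊆ K
  St_nul : ∀ a, NulIn (St a) (St a)
  St_conn : ∀ a b, Ae Γ a b → IsPreconnected (St a ∩ St b)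
  St_ne : ∀ a b d, Ae Γ a b → Ae Γ b d → Ae Γ a d → (St a ∩ St b ∩ St d).Nonempty
  St_ae : ∀ a b x, x ∈ St a → x ∈ St b → Ae Γ a b
  St_flip : ∀ a b x, x ∈ St a → x ∈ St b → iw ρ (gen Γ b) • x ∈ St a
  cover : ∀ x, ∃ u : W Γ, iw ρ u • x ∈ Ch
  usc : ∀ x, ∀ᶠ y in 𝓝 x, ∀ u : W Γ, iw ρ u • y ∈ Ch → iw ρ u • x ∈ Ch
  rel : ∀ x (u : W Γ), (x ∈ Ch ∨ ∃ a, x ∈ St a) → (iw ρ u • x ∈ Ch ∨ ∃ a, iw ρ u • x ∈ St a) →
    ∃ σ : Finset S, (∀ s ∈ σ, x ∈ St s) ∧ u = pr Γ σ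
  Mx_ne : ∀ x a, x ∈ St a → (Mx x).Nonempty
  Mx_sub : ∀ x, ∀ a ∈ Mx x, x ∈ St a
  Mx_usc : ∀ x a, x ∈ St a → ∀ᶠ y in 𝓝 x, ∀ b ∈ Mx y, x ∈ St b
  E_open : IsOpen E
  E_cpt : ∃ K, IsCompact K ∧ E ⊆ K
  E_conn : IsPreconnected E
  E_sub : ∀ x ∈ E, x ∈ Ch ∨ ∃ a, x ∈ St a
  E_ne : ∃ x ∈ E, ∃ a, x ∈ St a
  E_cover : ∀ x ∈ Ch, ∃ f : F, jf ρ f • x ∈ E
  nul : ∀ K : Set M, IsCompact K → ∃ K', IsCompact K' ∧ NulIn K K'

/-- the action of `F` on the vertices: free, finitely many orbits, `F` infinite and torsion free -/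
structure Fr {S F : Type} {Γ : SimpleGraph S} [Group F] (ρ : F →* (Γ ≃g Γ)) : Prop where
  free : ∀ (f : F) a, ρ f a = a → f = 1
  orb : ∃ B : Set S, B.Finite ∧ ∀ a, ∃ f : F, ρ f a ∈ B
  inf : Infinite F
  conn : Cn Γ univ

section ds

variable {S F : Type} {Γ : SimpleGraph S} [Group F] {ρ : F →* (Γ ≃g Γ)} {M : Type}
  [TopologicalSpace M] [MulAction (G0 ρ) M] (D : Ds ρ M) {Λ : Type} [Group Λ]

/-- the open star of the base chamber -/
def Ds.O : Set M := {x | x ∈ D.Ch ∨ ∃ a, x ∈ D.St a}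

/-- the core of the base chamber -/
def Ds.Core : Set M := {x | x ∈ D.Ch ∧ ∀ a, x ∉ D.St a}

/-- the walls of the base chamber beyond or near which `x` lies (a clique: the support of the far projection) -/
def Ds.T (x : M) : Set S := {a | ∃ u : W Γ, iw ρ u⁻¹ • x ∈ D.O ∧ a ∈ Init u}

/-- an equivariant labelling of the points off the core (simplicial approximation of the far projection) -/
structure Ds.Lab (l : M → S) : Prop where
  usc : ∀ x, x ∉ D.Core → ∀ᶠ y in 𝓝 x, l y ∈ D.T x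
  st : ∀ x ∈ D.Ch, x ∉ D.Core → x ∈ D.St (l x)
  smul : ∀ (f : F) x, l (jf ρ f • x) = ρ f (l x)

open Classical in
/-- the pull back of a cocycle along the far projection -/
def Ds.pull (l : M → S) (c : S → S → Λ) (x y : M) : Λ :=
  if x ∉ D.Core ∧ y ∉ D.Core ∧ Ae Γ (l x) (l y) then c (l x) (l y) else 1

/-- every wall has all but finitely many of its stars inside `U` -/
def Ds.Cof (U : Set M) : Prop :=
  ∀ (u : W Γ) a, {v | v ∈ WT Γ {s | Γ.Adj a s} ∧ ¬ iw ρ (u * v) • D.St a ⊆ U}.Finite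

/-- the far part of the wall `a` of the base chamber -/
def Ds.Far (a : S) (B : Set (W Γ)) : Set M :=
  {x | ∃ v ∈ WT Γ {s | Γ.Adj a s}, v ∉ B ∧ x ∈ iw ρ v • D.St a}

/-- `c` is the restriction at infinity of `g` to the base chamber, computed with the sections `b` -/
def Ds.ResB (g : M → M → Λ) (b : S → M → Λ) (c : S → S → Λ) : Prop :=
  (∀ a, ∃ B : Set (W Γ), B.Finite ∧ Par g (D.Far a B) (b a)) ∧
    ∀ a a', Ae Γ a a' → ∃ B : Set (W Γ), B.Finite ∧ ∀ v ∈ WT Γ {s | Γ.Adj a s ∧ Γ.Adj a' s}, v ∉ B →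
      ∀ z ∈ iw ρ v • (D.St a ∩ D.St a'), b a z = c a a' * b a' z

/-- `c` is the restriction at infinity of `g` to the base chamber -/
def Ds.Res (g : M → M → Λ) (c : S → S → Λ) : Prop := ∃ b, D.ResB g b c

end ds

/-- `c` is invariant under `F` -/
def Inv {S F : Type} {Γ : SimpleGraph S} [Group F] (ρ : F →* (Γ ≃g Γ)) {Λ : Type} (c : S → S → Λ) : Prop :=
  ∀ (f : F) a b, c (ρ f a) (ρ f b) = c a b

/-- MAIN STATEMENT of block (a).  A homeomorphism `h` of the universal covers, equivariant for an automorphism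
`α` of `G`, is after a translation by a chamber `w` equivariant for an automorphism `β` of `F`, and the pull back
of every invariant cocycle is, far from the core, invariantly gauge equivalent to the pull back of an invariant
cocycle. -/
def ChS : Prop :=
  ∀ (S F : Type) (Γ : SimpleGraph S) [Group F] (ρ : F →* (Γ ≃g Γ)) (V : Type) [MulAction F V] (Λ : Type)
    [Group Λ] (_ : Ind Γ ρ V Λ) (_ : Lk Γ) (_ : Fr ρ)
    (M N : Type) [TopologicalSpace M] [TopologicalSpace N] [T2Space M] [T2Space N]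
    [MulAction (G0 ρ) M] [MulAction (G0 ρ) N] [ContinuousConstSMul (G0 ρ) M] [ContinuousConstSMul (G0 ρ) N]
    [ProperlyDiscontinuousSMul (G0 ρ) M] [ProperlyDiscontinuousSMul (G0 ρ) N]
    (DM : Ds ρ M) (DN : Ds ρ N) (lM : M → S) (lN : N → S) (_ : DM.Lab lM) (_ : DN.Lab lN)
    (G : Subgroup (G0 ρ)) [G.Normal] (_ : ∀ f, jf ρ f ∈ G) (h : M ≃ₜ N) (α : G ≃* G)
    (_ : ∀ (g : G) x, h ((g : G0 ρ) • x) = (α g : G0 ρ) • h x),
    ∃ (w : W Γ) (β : F ≃* F), (∀ f x, iw ρ w • h (jf ρ f • x) = jf ρ (β f) • iw ρ w • h x) ∧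
      ∀ (P : Type) [Group P] (ω : S → S → P), Coc Γ univ ω → Inv ρ ω →
        ∃ (c : S → S → P) (b : M → P) (K : Set M), Coc Γ univ c ∧ Inv ρ c ∧ IsCompact K ∧
          (∀ (f : F) x, b (jf ρ f • x) = b x) ∧
          Gt (DM.pull lM c) (fun x y => DN.pull lN ω (iw ρ w • h x) (iw ρ w • h y))
            {x | ∀ f : F, jf ρ f • x ∉ K} b

/-- two invariant cocycles whose pull backs are invariantly gauge equivalent far from the core are invariantly
gauge equivalent -/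
def UqS : Prop :=
  ∀ (S F : Type) (Γ : SimpleGraph S) [Group F] (ρ : F →* (Γ ≃g Γ)) (_ : Lk Γ) (_ : Fr ρ)
    (M : Type) [TopologicalSpace M] [T2Space M] [MulAction (G0 ρ) M] [ContinuousConstSMul (G0 ρ) M]
    [ProperlyDiscontinuousSMul (G0 ρ) M] (D : Ds ρ M) (l : M → S) (_ : D.Lab l)
    (P : Type) [Group P] (c c' : S → S → P) (b : M → P) (K : Set M), Coc Γ univ c → Coc Γ univ c' →
    Inv ρ c → Inv ρ c' → IsCompact K → (∀ (f : F) x, b (jf ρ f • x) = b x) →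
    Gt (D.pull l c) (D.pull l c') {x | ∀ f : F, jf ρ f • x ∉ K} b →
    ∃ k : S → P, (∀ (f : F) a, k (ρ f a) = k a) ∧ GaK Γ univ c c' k

end Crest.Agent.N233.Cc

end
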